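import Mathlib

/-!
# Generalized circuits are easy for `ε ≥ 1/4` (proof of `P330.LargeEpsilon`)

For every `ε ≥ 1/4` an assignment that `ε`-satisfies every gate of a generalized circuit is
given by an explicit rule: the constant `1/2` when `ε ≥ 1/2`, and for `1/4 ≤ ε < 1/2` fixed
values in `[1/4, 3/4]` at the outputs of Constant, Scale, Copy, Add and Subtract gates together
with the `|V|`-th iterate of a monotone three-valued update at the outputs of Less, Not, Or and
And gates.
-/

namespace Vale.Agent.Helper2.GCircuitEasy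

/-- The three-valued update is stationary after `|V|` steps. -/
theorem core {V : Type} [Fintype V] (kind : V → Option (Fin 9)) (a b : V → V) (ε : ℝ)
    (h4 : 1 / 4 ≤ ε) (h2 : ε < 1 / 2)
    (step : (V → ℚ) → V → ℚ) (x₀ : V → ℚ)
    (hs5 : ∀ x z, kind z = some 5 → step x z =
      if ((x (a z) : ℚ) : ℝ) < ((x (b z) : ℚ) : ℝ) - ε then 3 / 4
      else if ((x (b z) : ℚ) : ℝ) + ε < ((x (a z) : ℚ) : ℝ) then 1 / 4 else 1 / 2)
    (hs6 : ∀ x z, kind z = some 6 → step x z =
      if ((x (a z) : ℚ) : ℝ) ≤ ε then 3 / 4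
      else if 1 - ε ≤ ((x (a z) : ℚ) : ℝ) then 1 / 4 else 1 / 2)
    (hs7 : ∀ x z, kind z = some 7 → step x z =
      if 1 - ε ≤ ((x (a z) : ℚ) : ℝ) ∨ 1 - ε ≤ ((x (b z) : ℚ) : ℝ) then 3 / 4
      else if ((x (a z) : ℚ) : ℝ) ≤ ε ∧ ((x (b z) : ℚ) : ℝ) ≤ ε then 1 / 4 else 1 / 2)
    (hs8 : ∀ x z, kind z = some 8 → step x z =
      if 1 - ε ≤ ((x (a z) : ℚ) : ℝ) ∧ 1 - ε ≤ ((x (b z) : ℚ) : ℝ) then 3 / 4
      else if ((x (a z) : ℚ) : ℝ) ≤ ε ∨ ((x (b z) : ℚ) : ℝ) ≤ ε then 1 / 4 else 1 / 2)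
    (hsn : ∀ x z, kind z ≠ some 5 → kind z ≠ some 6 → kind z ≠ some 7 → kind z ≠ some 8 →
      step x z = x z)
    (h0 : ∀ z, (kind z = some 5 ∨ kind z = some 6 ∨ kind z = some 7 ∨ kind z = some 8) →
      x₀ z = 1 / 2)
    (hx0 : ∀ z, 1 / 4 ≤ x₀ z ∧ x₀ z ≤ 3 / 4) :
    step (step^[Fintype.card V] x₀) = step^[Fintype.card V] x₀ ∧
    (∀ n z, kind z ≠ some 5 → kind z ≠ some 6 → kind z ≠ some 7 → kind z ≠ some 8 →
      step^[n] x₀ z = x₀ z) ∧
    (∀ n z, 1 / 4 ≤ step^[n] x₀ z ∧ step^[n] x₀ z ≤ 3 / 4) := by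
  have hbr : ∀ z, (kind z = some 5 ∨ kind z = some 6 ∨ kind z = some 7 ∨ kind z = some 8) ∨
      (kind z ≠ some 5 ∧ kind z ≠ some 6 ∧ kind z ≠ some 7 ∧ kind z ≠ some 8) := by
    intro z
    by_cases h5 : kind z = some 5
    · exact Or.inl (Or.inl h5)
    · by_cases h6 : kind z = some 6
      · exact Or.inl (Or.inr (Or.inl h6))
      · by_cases h7 : kind z = some 7
        · exact Or.inl (Or.inr (Or.inr (Or.inl h7)))
        · by_cases h8 : kind z = some 8
          · exact Or.inl (Or.inr (Or.inr (Or.inr h8)))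
          · exact Or.inr ⟨h5, h6, h7, h8⟩
  have hval : ∀ x z, (kind z = some 5 ∨ kind z = some 6 ∨ kind z = some 7 ∨ kind z = some 8) →
      step x z = 1 / 4 ∨ step x z = 1 / 2 ∨ step x z = 3 / 4 := by
    intro x z hz
    rcases hz with h | h | h | h
    · rw [hs5 x z h]; split_ifs <;> simp
    · rw [hs6 x z h]; split_ifs <;> simp
    · rw [hs7 x z h]; split_ifs <;> simp
    · rw [hs8 x z h]; split_ifs <;> simp
  have hit : ∀ n, step^[n + 1] x₀ = step (step^[n] x₀) :=
    fun n => Function.iterate_succ_apply' step n x₀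
  have hfix : ∀ n z, kind z ≠ some 5 → kind z ≠ some 6 → kind z ≠ some 7 → kind z ≠ some 8 →
      step^[n] x₀ z = x₀ z := by
    intro n
    induction n with
    | zero => intro z _ _ _ _; rfl
    | succ n ih =>
      intro z h5 h6 h7 h8
      rw [hit n, hsn _ z h5 h6 h7 h8]
      exact ih z h5 h6 h7 h8
  have hvals : ∀ n z, (kind z = some 5 ∨ kind z = some 6 ∨ kind z = some 7 ∨ kind z = some 8) →
      step^[n] x₀ z = 1 / 4 ∨ step^[n] x₀ z = 1 / 2 ∨ step^[n] x₀ z = 3 / 4 := by
    intro n z hz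
    cases n with
    | zero => right; left; exact h0 z hz
    | succ n => rw [hit n]; exact hval _ z hz
  have hrange : ∀ n z, 1 / 4 ≤ step^[n] x₀ z ∧ step^[n] x₀ z ≤ 3 / 4 := by
    intro n z
    rcases hbr z with hb | ⟨h5, h6, h7, h8⟩
    · rcases hvals n z hb with h | h | h <;> (rw [h]; norm_num)
    · rw [hfix n z h5 h6 h7 h8]
      exact hx0 z
  have hrangeR : ∀ n z, (1 / 4 : ℝ) ≤ ((step^[n] x₀ z : ℚ) : ℝ) ∧
      ((step^[n] x₀ z : ℚ) : ℝ) ≤ 3 / 4 := by
    intro n z
    obtain ⟨h1, h2'⟩ := hrange n z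
    constructor
    · have h := (Rat.cast_le (K := ℝ)).mpr h1
      push_cast at h
      linarith
    · have h := (Rat.cast_le (K := ℝ)).mpr h2'
      push_cast at h
      linarith
  refine ⟨?_, hfix, hrange⟩
  -- a value that is low or high is not the undetermined value
  have hhalf : ∀ q : ℚ, q = 1 / 2 → ((q : ℚ) : ℝ) = 1 / 2 := by
    intro q hq
    rw [hq]
    push_cast
    ring
  -- monotonicity of one step in the information order
  have hmono : ∀ x y : V → ℚ,
      (∀ w, (1 / 4 : ℝ) ≤ ((x w : ℚ) : ℝ) ∧ ((x w : ℚ) : ℝ) ≤ 3 / 4) →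
      (∀ z, kind z ≠ some 5 → kind z ≠ some 6 → kind z ≠ some 7 → kind z ≠ some 8 →
        y z = x z) →
      (∀ z, (kind z = some 5 ∨ kind z = some 6 ∨ kind z = some 7 ∨ kind z = some 8) →
        x z ≠ 1 / 2 → y z = x z) →
      ∀ z, (kind z = some 5 ∨ kind z = some 6 ∨ kind z = some 7 ∨ kind z = some 8) →
        step x z ≠ 1 / 2 → step y z = step x z := by
    intro x y hxr hE1 hE2 z hz hne
    have keyne : ∀ w, x w ≠ 1 / 2 → y w = x w := by
      intro w hw
      rcases hbr w with hb | ⟨h5, h6, h7, h8⟩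
      · exact hE2 w hb hw
      · exact hE1 w h5 h6 h7 h8
    have keylo : ∀ w, ((x w : ℚ) : ℝ) ≤ ε → y w = x w := by
      intro w hw
      apply keyne
      intro hq
      have := hhalf _ hq
      linarith
    have keyhi : ∀ w, 1 - ε ≤ ((x w : ℚ) : ℝ) → y w = x w := by
      intro w hw
      apply keyne
      intro hq
      have := hhalf _ hq
      linarith
    obtain ⟨ha1, ha2⟩ := hxr (a z)
    obtain ⟨hb1, hb2⟩ := hxr (b z)
    rcases hz with h | h | h | h
    · by_cases c1 : ((x (a z) : ℚ) : ℝ) < ((x (b z) : ℚ) : ℝ) - ε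
      · have ea : y (a z) = x (a z) := by
          apply keyne
          intro hq
          have := hhalf _ hq
          linarith
        have eb : y (b z) = x (b z) := by
          apply keyne
          intro hq
          have := hhalf _ hq
          linarith
        rw [hs5 x z h, hs5 y z h, ea, eb]
      · by_cases c2 : ((x (b z) : ℚ) : ℝ) + ε < ((x (a z) : ℚ) : ℝ)
        · have ea : y (a z) = x (a z) := by
            apply keyne
            intro hq
            have := hhalf _ hq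
            linarith
          have eb : y (b z) = x (b z) := by
            apply keyne
            intro hq
            have := hhalf _ hq
            linarith
          rw [hs5 x z h, hs5 y z h, ea, eb]
        · exfalso
          apply hne
          rw [hs5 x z h, if_neg c1, if_neg c2]
    · by_cases c1 : ((x (a z) : ℚ) : ℝ) ≤ ε
      · rw [hs6 x z h, hs6 y z h, keylo _ c1]
      · by_cases c2 : 1 - ε ≤ ((x (a z) : ℚ) : ℝ)
        · rw [hs6 x z h, hs6 y z h, keyhi _ c2]
        · exfalso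
          apply hne
          rw [hs6 x z h, if_neg c1, if_neg c2]
    · by_cases c1 : 1 - ε ≤ ((x (a z) : ℚ) : ℝ) ∨ 1 - ε ≤ ((x (b z) : ℚ) : ℝ)
      · have c1y : 1 - ε ≤ ((y (a z) : ℚ) : ℝ) ∨ 1 - ε ≤ ((y (b z) : ℚ) : ℝ) := by
          rcases c1 with c | c
          · left; rw [keyhi _ c]; exact c
          · right; rw [keyhi _ c]; exact c
        rw [hs7 x z h, hs7 y z h, if_pos c1, if_pos c1y]
      · by_cases c2 : ((x (a z) : ℚ) : ℝ) ≤ ε ∧ ((x (b z) : ℚ) : ℝ) ≤ ε
        · rw [hs7 x z h, hs7 y z h, keylo _ c2.1, keylo _ c2.2]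
        · exfalso
          apply hne
          rw [hs7 x z h, if_neg c1, if_neg c2]
    · by_cases c1 : 1 - ε ≤ ((x (a z) : ℚ) : ℝ) ∧ 1 - ε ≤ ((x (b z) : ℚ) : ℝ)
      · rw [hs8 x z h, hs8 y z h, keyhi _ c1.1, keyhi _ c1.2]
      · by_cases c2 : ((x (a z) : ℚ) : ℝ) ≤ ε ∨ ((x (b z) : ℚ) : ℝ) ≤ ε
        · have c2y : ((y (a z) : ℚ) : ℝ) ≤ ε ∨ ((y (b z) : ℚ) : ℝ) ≤ ε := by
            rcases c2 with c | c
            · left; rw [keylo _ c]; exact c
            · right; rw [keylo _ c]; exact c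
          have c1y : ¬ (1 - ε ≤ ((y (a z) : ℚ) : ℝ) ∧ 1 - ε ≤ ((y (b z) : ℚ) : ℝ)) := by
            rintro ⟨ha, hb⟩
            rcases c2y with c | c
            · linarith
            · linarith
          rw [hs8 x z h, hs8 y z h, if_neg c1, if_pos c2, if_neg c1y, if_pos c2y]
        · exfalso
          apply hne
          rw [hs8 x z h, if_neg c1, if_neg c2]
  -- the chain of iterates
  have hchain : ∀ n z,
      (kind z = some 5 ∨ kind z = some 6 ∨ kind z = some 7 ∨ kind z = some 8) →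
      step^[n] x₀ z ≠ 1 / 2 → step^[n + 1] x₀ z = step^[n] x₀ z := by
    intro n
    induction n with
    | zero =>
      intro z hz hne
      exact absurd (h0 z hz) hne
    | succ n ih =>
      intro z hz hne
      have e1 : step^[n + 1 + 1] x₀ z = step (step^[n + 1] x₀) z := congrFun (hit (n + 1)) z
      have e2 : step^[n + 1] x₀ z = step (step^[n] x₀) z := congrFun (hit n) z
      rw [e1, e2]
      rw [e2] at hne
      refine hmono (step^[n] x₀) (step^[n + 1] x₀) (hrangeR n) ?_ ih z hz hne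
      intro w h5 h6 h7 h8
      rw [hfix (n + 1) w h5 h6 h7 h8, hfix n w h5 h6 h7 h8]
  -- the set of determined nodes grows strictly at every non-stationary step
  have hgrow : ∀ n, step^[n + 1] x₀ ≠ step^[n] x₀ →
      {z | (kind z = some 5 ∨ kind z = some 6 ∨ kind z = some 7 ∨ kind z = some 8) ∧
          step^[n] x₀ z ≠ 1 / 2}.ncard
        < {z | (kind z = some 5 ∨ kind z = some 6 ∨ kind z = some 7 ∨ kind z = some 8) ∧
            step^[n + 1] x₀ z ≠ 1 / 2}.ncard := by
    intro n hne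
    apply Set.ncard_lt_ncard _ (Set.toFinite _)
    obtain ⟨z, hz⟩ : ∃ z, step^[n + 1] x₀ z ≠ step^[n] x₀ z := by
      by_contra hcon
      apply hne
      funext z
      by_contra hz
      exact hcon ⟨z, hz⟩
    have hzb : kind z = some 5 ∨ kind z = some 6 ∨ kind z = some 7 ∨ kind z = some 8 := by
      rcases hbr z with hb | ⟨h5, h6, h7, h8⟩
      · exact hb
      · exfalso
        apply hz
        rw [hfix (n + 1) z h5 h6 h7 h8, hfix n z h5 h6 h7 h8]
    have hzhalf : step^[n] x₀ z = 1 / 2 := by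
      by_contra hc
      exact hz (hchain n z hzb hc)
    refine ⟨?_, ?_⟩
    · intro w hw
      refine ⟨hw.1, ?_⟩
      rw [hchain n w hw.1 hw.2]
      exact hw.2
    · intro hsub
      have hmem : z ∈ {z | (kind z = some 5 ∨ kind z = some 6 ∨ kind z = some 7 ∨
          kind z = some 8) ∧ step^[n + 1] x₀ z ≠ 1 / 2} := by
        refine ⟨hzb, ?_⟩
        intro hc
        apply hz
        rw [hc, hzhalf]
      exact (hsub hmem).2 hzhalf
  have hcount : ∀ n, step^[n + 1] x₀ = step^[n] x₀ ∨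
      n < {z | (kind z = some 5 ∨ kind z = some 6 ∨ kind z = some 7 ∨ kind z = some 8) ∧
            step^[n + 1] x₀ z ≠ 1 / 2}.ncard := by
    intro n
    induction n with
    | zero =>
      by_cases hc : step^[0 + 1] x₀ = step^[0] x₀
      · exact Or.inl hc
      · right
        have := hgrow 0 hc
        omega
    | succ n ih =>
      rcases ih with h | h
      · left
        rw [hit (n + 1), h]
        rw [← hit n]
        exact h
      · by_cases hc : step^[n + 1 + 1] x₀ = step^[n + 1] x₀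
        · exact Or.inl hc
        · right
          have := hgrow (n + 1) hc
          omega
  rcases hcount (Fintype.card V) with h | h
  · rw [← hit (Fintype.card V)]
    exact h
  · exfalso
    have hle : {z | (kind z = some 5 ∨ kind z = some 6 ∨ kind z = some 7 ∨ kind z = some 8) ∧
        step^[Fintype.card V + 1] x₀ z ≠ 1 / 2}.ncard ≤ Fintype.card V := by
      have h1 := Set.ncard_le_ncard (Set.subset_univ
        {z | (kind z = some 5 ∨ kind z = some 6 ∨ kind z = some 7 ∨ kind z = some 8) ∧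
          step^[Fintype.card V + 1] x₀ z ≠ 1 / 2}) (Set.toFinite _)
      rw [Set.ncard_univ, Nat.card_eq_fintype_card] at h1
      exact h1
    omega

/-- Generalized circuits are easy for `ε ≥ 1/4`. A generalized circuit on the finite node set `V`
is given by `kind z` (`none`: `z` is the output of no gate; `some k`: `z` is the output of a gate
of kind `k`, with `0` Constant, `1` Scale, `2` Copy, `3` Add, `4` Subtract, `5` Less, `6` Not,
`7` Or, `8` And), its parameter `α z` (kinds `0`, `1`) and its input nodes `a z`, `b z`.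
`Sat x z` says that `z` is the output of a gate and this gate is `ε`-satisfied by `x`.
(i) If `ε ≥ 1/2`, the constant assignment `1/2` satisfies every gate.
(ii) If `1/4 ≤ ε < 1/2`: start from `x₀` (the parameter clamped to `[1/4, 3/4]` at Constant
gates, `max (1/4) (α/2)` at Scale gates, `3/4` at Add gates, `1/4` at Subtract gates, `1/2`
elsewhere) and apply `|V|` times the update `step`, which recomputes the outputs of the Less,
Not, Or and And gates as `3/4` (forced high), `1/4` (forced low) or `1/2` (not forced). The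
result is a fixed point of `step`, has its values in `[1/4, 3/4]`, and satisfies every gate. -/
theorem main {V : Type} [Fintype V] (kind : V → Option (Fin 9)) (α : V → ℚ) (a b : V → V)
    (hα : ∀ z, kind z = some 0 ∨ kind z = some 1 → 0 ≤ α z ∧ α z ≤ 1) (ε : ℝ) :
    let Sat : (V → ℝ) → V → Prop := fun x z =>
      (kind z = some 0 ∧ |x z - (α z : ℝ)| ≤ ε) ∨
      (kind z = some 1 ∧ |x z - (α z : ℝ) * x (a z)| ≤ ε) ∨
      (kind z = some 2 ∧ |x z - x (a z)| ≤ ε) ∨
      (kind z = some 3 ∧ |x z - min (x (a z) + x (b z)) 1| ≤ ε) ∨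
      (kind z = some 4 ∧ |x z - max (x (a z) - x (b z)) 0| ≤ ε) ∨
      (kind z = some 5 ∧ (x (a z) < x (b z) - ε → 1 - ε ≤ x z) ∧
        (x (b z) + ε < x (a z) → x z ≤ ε)) ∨
      (kind z = some 6 ∧ (x (a z) ≤ ε → 1 - ε ≤ x z) ∧ (1 - ε ≤ x (a z) → x z ≤ ε)) ∨
      (kind z = some 7 ∧ ((1 - ε ≤ x (a z) ∨ 1 - ε ≤ x (b z)) → 1 - ε ≤ x z) ∧
        ((x (a z) ≤ ε ∧ x (b z) ≤ ε) → x z ≤ ε)) ∨
      (kind z = some 8 ∧ ((1 - ε ≤ x (a z) ∧ 1 - ε ≤ x (b z)) → 1 - ε ≤ x z) ∧
        ((x (a z) ≤ ε ∨ x (b z) ≤ ε) → x z ≤ ε))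
    let step : (V → ℚ) → V → ℚ := fun x z =>
      if kind z = some 5 then
        (if ((x (a z) : ℚ) : ℝ) < ((x (b z) : ℚ) : ℝ) - ε then 3 / 4
          else if ((x (b z) : ℚ) : ℝ) + ε < ((x (a z) : ℚ) : ℝ) then 1 / 4 else 1 / 2)
      else if kind z = some 6 then
        (if ((x (a z) : ℚ) : ℝ) ≤ ε then 3 / 4
          else if 1 - ε ≤ ((x (a z) : ℚ) : ℝ) then 1 / 4 else 1 / 2)
      else if kind z = some 7 then
        (if 1 - ε ≤ ((x (a z) : ℚ) : ℝ) ∨ 1 - ε ≤ ((x (b z) : ℚ) : ℝ) then 3 / 4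
          else if ((x (a z) : ℚ) : ℝ) ≤ ε ∧ ((x (b z) : ℚ) : ℝ) ≤ ε then 1 / 4 else 1 / 2)
      else if kind z = some 8 then
        (if 1 - ε ≤ ((x (a z) : ℚ) : ℝ) ∧ 1 - ε ≤ ((x (b z) : ℚ) : ℝ) then 3 / 4
          else if ((x (a z) : ℚ) : ℝ) ≤ ε ∨ ((x (b z) : ℚ) : ℝ) ≤ ε then 1 / 4 else 1 / 2)
      else x z
    let x₀ : V → ℚ := fun z =>
      if kind z = some 0 then max (1 / 4) (min (α z) (3 / 4))
      else if kind z = some 1 then max (1 / 4) (α z / 2)
      else if kind z = some 3 then 3 / 4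
      else if kind z = some 4 then 1 / 4
      else 1 / 2
    (1 / 2 ≤ ε → ∀ z, kind z ≠ none → Sat (fun _ => 1 / 2) z) ∧
    (1 / 4 ≤ ε → ε < 1 / 2 →
      step (step^[Fintype.card V] x₀) = step^[Fintype.card V] x₀ ∧
      (∀ z, 1 / 4 ≤ step^[Fintype.card V] x₀ z ∧ step^[Fintype.card V] x₀ z ≤ 3 / 4) ∧
      ∀ z, kind z ≠ none → Sat (fun v => ((step^[Fintype.card V] x₀ v : ℚ) : ℝ)) z) := by
  intro Sat step x₀
  have hαR : ∀ z, kind z = some 0 ∨ kind z = some 1 →
      (0 : ℝ) ≤ (α z : ℝ) ∧ (α z : ℝ) ≤ 1 := by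
    intro z hz
    obtain ⟨h1, h2⟩ := hα z hz
    exact ⟨by exact_mod_cast h1, by exact_mod_cast h2⟩
  refine ⟨?_, ?_⟩
  · intro hε z hz
    obtain ⟨k, hk⟩ := Option.ne_none_iff_exists'.mp hz
    fin_cases k
    · obtain ⟨h1, h2⟩ := hαR z (Or.inl hk)
      refine Or.inl ⟨hk, ?_⟩
      show |(1 / 2 : ℝ) - (α z : ℝ)| ≤ ε
      rw [abs_le]; constructor <;> linarith
    · obtain ⟨h1, h2⟩ := hαR z (Or.inr hk)
      refine Or.inr (Or.inl ⟨hk, ?_⟩)
      show |(1 / 2 : ℝ) - (α z : ℝ) * (1 / 2)| ≤ ε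
      rw [abs_le]; constructor <;> linarith
    · refine Or.inr (Or.inr (Or.inl ⟨hk, ?_⟩))
      show |(1 / 2 : ℝ) - 1 / 2| ≤ ε
      rw [sub_self, abs_zero]; linarith
    · refine Or.inr (Or.inr (Or.inr (Or.inl ⟨hk, ?_⟩)))
      show |(1 / 2 : ℝ) - min (1 / 2 + 1 / 2) 1| ≤ ε
      have h1 : min ((1 / 2 : ℝ) + 1 / 2) 1 = 1 := by norm_num
      rw [h1, abs_le]; constructor <;> linarith
    · refine Or.inr (Or.inr (Or.inr (Or.inr (Or.inl ⟨hk, ?_⟩))))
      show |(1 / 2 : ℝ) - max (1 / 2 - 1 / 2) 0| ≤ ε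
      have h1 : max ((1 / 2 : ℝ) - 1 / 2) 0 = 0 := by norm_num
      rw [h1, abs_le]; constructor <;> linarith
    · refine Or.inr (Or.inr (Or.inr (Or.inr (Or.inr (Or.inl ⟨hk, ?_, ?_⟩)))))
      · intro h
        have h' : (1 / 2 : ℝ) < 1 / 2 - ε := h
        linarith
      · intro h
        have h' : (1 / 2 : ℝ) + ε < 1 / 2 := h
        linarith
    · refine Or.inr (Or.inr (Or.inr (Or.inr (Or.inr (Or.inr (Or.inl ⟨hk, ?_, ?_⟩))))))
      · intro _
        show 1 - ε ≤ (1 / 2 : ℝ)
        linarith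
      · intro _
        show (1 / 2 : ℝ) ≤ ε
        linarith
    · refine Or.inr (Or.inr (Or.inr (Or.inr (Or.inr (Or.inr (Or.inr (Or.inl ⟨hk, ?_, ?_⟩)))))))
      · intro _
        show 1 - ε ≤ (1 / 2 : ℝ)
        linarith
      · intro _
        show (1 / 2 : ℝ) ≤ ε
        linarith
    · refine Or.inr (Or.inr (Or.inr (Or.inr (Or.inr (Or.inr (Or.inr (Or.inr ⟨hk, ?_, ?_⟩)))))))
      · intro _
        show 1 - ε ≤ (1 / 2 : ℝ)
        linarith
      · intro _
        show (1 / 2 : ℝ) ≤ ε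
        linarith
  · intro h4 h2
    have hs5 : ∀ x z, kind z = some 5 → step x z =
        if ((x (a z) : ℚ) : ℝ) < ((x (b z) : ℚ) : ℝ) - ε then 3 / 4
        else if ((x (b z) : ℚ) : ℝ) + ε < ((x (a z) : ℚ) : ℝ) then 1 / 4 else 1 / 2 := by
      intro x z h
      show (if kind z = some 5 then _ else _) = _
      rw [if_pos h]
    have hs6 : ∀ x z, kind z = some 6 → step x z =
        if ((x (a z) : ℚ) : ℝ) ≤ ε then 3 / 4
        else if 1 - ε ≤ ((x (a z) : ℚ) : ℝ) then 1 / 4 else 1 / 2 := by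
      intro x z h
      have n5 : kind z ≠ some 5 := by rw [h]; decide
      show (if kind z = some 5 then _ else if kind z = some 6 then _ else _) = _
      rw [if_neg n5, if_pos h]
    have hs7 : ∀ x z, kind z = some 7 → step x z =
        if 1 - ε ≤ ((x (a z) : ℚ) : ℝ) ∨ 1 - ε ≤ ((x (b z) : ℚ) : ℝ) then 3 / 4
        else if ((x (a z) : ℚ) : ℝ) ≤ ε ∧ ((x (b z) : ℚ) : ℝ) ≤ ε then 1 / 4 else 1 / 2 := by
      intro x z h
      have n5 : kind z ≠ some 5 := by rw [h]; decide
      have n6 : kind z ≠ some 6 := by rw [h]; decide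
      show (if kind z = some 5 then _ else if kind z = some 6 then _
        else if kind z = some 7 then _ else _) = _
      rw [if_neg n5, if_neg n6, if_pos h]
    have hs8 : ∀ x z, kind z = some 8 → step x z =
        if 1 - ε ≤ ((x (a z) : ℚ) : ℝ) ∧ 1 - ε ≤ ((x (b z) : ℚ) : ℝ) then 3 / 4
        else if ((x (a z) : ℚ) : ℝ) ≤ ε ∨ ((x (b z) : ℚ) : ℝ) ≤ ε then 1 / 4 else 1 / 2 := by
      intro x z h
      have n5 : kind z ≠ some 5 := by rw [h]; decide
      have n6 : kind z ≠ some 6 := by rw [h]; decide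
      have n7 : kind z ≠ some 7 := by rw [h]; decide
      show (if kind z = some 5 then _ else if kind z = some 6 then _
        else if kind z = some 7 then _ else if kind z = some 8 then _ else _) = _
      rw [if_neg n5, if_neg n6, if_neg n7, if_pos h]
    have hsn : ∀ x z, kind z ≠ some 5 → kind z ≠ some 6 → kind z ≠ some 7 →
        kind z ≠ some 8 → step x z = x z := by
      intro x z h5 h6 h7 h8
      show (if kind z = some 5 then _ else if kind z = some 6 then _
        else if kind z = some 7 then _ else if kind z = some 8 then _ else x z) = x z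
      rw [if_neg h5, if_neg h6, if_neg h7, if_neg h8]
    have hx0def : ∀ z, x₀ z = (if kind z = some 0 then max (1 / 4) (min (α z) (3 / 4))
        else if kind z = some 1 then max (1 / 4) (α z / 2)
        else if kind z = some 3 then 3 / 4
        else if kind z = some 4 then 1 / 4 else 1 / 2) := fun z => rfl
    have h0 : ∀ z, (kind z = some 5 ∨ kind z = some 6 ∨ kind z = some 7 ∨ kind z = some 8) →
        x₀ z = 1 / 2 := by
      intro z hz
      have n0 : kind z ≠ some 0 := by rcases hz with h | h | h | h <;> (rw [h]; decide)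
      have n1 : kind z ≠ some 1 := by rcases hz with h | h | h | h <;> (rw [h]; decide)
      have n3 : kind z ≠ some 3 := by rcases hz with h | h | h | h <;> (rw [h]; decide)
      have n4 : kind z ≠ some 4 := by rcases hz with h | h | h | h <;> (rw [h]; decide)
      rw [hx0def z, if_neg n0, if_neg n1, if_neg n3, if_neg n4]
    have hx0 : ∀ z, 1 / 4 ≤ x₀ z ∧ x₀ z ≤ 3 / 4 := by
      intro z
      rw [hx0def z]
      by_cases k0 : kind z = some 0
      · rw [if_pos k0]
        exact ⟨le_max_left _ _, max_le (by norm_num) (min_le_right _ _)⟩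
      · rw [if_neg k0]
        by_cases k1 : kind z = some 1
        · rw [if_pos k1]
          obtain ⟨h1, h2'⟩ := hα z (Or.inr k1)
          exact ⟨le_max_left _ _, max_le (by norm_num) (by linarith)⟩
        · rw [if_neg k1]
          by_cases k3 : kind z = some 3
          · rw [if_pos k3]; norm_num
          · rw [if_neg k3]
            by_cases k4 : kind z = some 4
            · rw [if_pos k4]; norm_num
            · rw [if_neg k4]; norm_num
    obtain ⟨hfp, hfix, hrangeAll⟩ :=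
      core kind a b ε h4 h2 step x₀ hs5 hs6 hs7 hs8 hsn h0 hx0
    obtain ⟨xs, hxs⟩ : ∃ xs : V → ℚ, xs = step^[Fintype.card V] x₀ := ⟨_, rfl⟩
    rw [← hxs]
    have hfp' : step xs = xs := by rw [hxs]; exact hfp
    have hnb : ∀ z, kind z ≠ some 5 → kind z ≠ some 6 → kind z ≠ some 7 → kind z ≠ some 8 →
        xs z = x₀ z :=
      fun z h5 h6 h7 h8 => by rw [hxs]; exact hfix _ z h5 h6 h7 h8
    have hrange : ∀ z, 1 / 4 ≤ xs z ∧ xs z ≤ 3 / 4 := by
      intro z
      rw [hxs]
      exact hrangeAll _ z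
    have hrangeR : ∀ z, (1 / 4 : ℝ) ≤ ((xs z : ℚ) : ℝ) ∧ ((xs z : ℚ) : ℝ) ≤ 3 / 4 := by
      intro z
      obtain ⟨h1, h2'⟩ := hrange z
      constructor
      · have h := (Rat.cast_le (K := ℝ)).mpr h1
        push_cast at h
        linarith
      · have h := (Rat.cast_le (K := ℝ)).mpr h2'
        push_cast at h
        linarith
    refine ⟨hfp', hrange, ?_⟩
    intro z hz
    obtain ⟨k, hk⟩ := Option.ne_none_iff_exists'.mp hz
    obtain ⟨ha1, ha2⟩ := hrangeR (a z)
    obtain ⟨hb1, hb2⟩ := hrangeR (b z)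
    fin_cases k
    · -- Constant
      have hk' : kind z = some 0 := hk
      have ez : xs z = max (1 / 4) (min (α z) (3 / 4)) := by
        rw [hnb z (by rw [hk']; decide) (by rw [hk']; decide) (by rw [hk']; decide)
          (by rw [hk']; decide), hx0def z, if_pos hk']
      obtain ⟨h1, h2'⟩ := hα z (Or.inl hk')
      have lo : α z - 1 / 4 ≤ xs z := by
        rw [ez]
        exact le_trans (le_min (by linarith) (by linarith)) (le_max_right _ _)
      have up : xs z ≤ α z + 1 / 4 := by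
        rw [ez]
        exact max_le (by linarith) (le_trans (min_le_left _ _) (by linarith))
      have loR := (Rat.cast_le (K := ℝ)).mpr lo
      have upR := (Rat.cast_le (K := ℝ)).mpr up
      push_cast at loR upR
      refine Or.inl ⟨hk, ?_⟩
      show |((xs z : ℚ) : ℝ) - (α z : ℝ)| ≤ ε
      rw [abs_le]; constructor <;> linarith
    · -- Scale
      have hk' : kind z = some 1 := hk
      have ez : xs z = max (1 / 4) (α z / 2) := by
        rw [hnb z (by rw [hk']; decide) (by rw [hk']; decide) (by rw [hk']; decide)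
          (by rw [hk']; decide), hx0def z, if_neg (by rw [hk']; decide), if_pos hk']
      obtain ⟨h1, h2'⟩ := hα z (Or.inr hk')
      obtain ⟨hX1, hX2⟩ := hrange (a z)
      have hq1 : α z * (1 / 4) ≤ α z * xs (a z) := mul_le_mul_of_nonneg_left hX1 h1
      have hq2 : α z * xs (a z) ≤ α z * (3 / 4) := mul_le_mul_of_nonneg_left hX2 h1
      have lo : α z * xs (a z) - 1 / 4 ≤ xs z := by
        rw [ez]
        exact le_trans (by linarith) (le_max_right _ _)
      have up : xs z ≤ α z * xs (a z) + 1 / 4 := by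
        rw [ez]
        exact max_le (by linarith) (by linarith)
      have loR := (Rat.cast_le (K := ℝ)).mpr lo
      have upR := (Rat.cast_le (K := ℝ)).mpr up
      push_cast at loR upR
      refine Or.inr (Or.inl ⟨hk, ?_⟩)
      show |((xs z : ℚ) : ℝ) - (α z : ℝ) * ((xs (a z) : ℚ) : ℝ)| ≤ ε
      rw [abs_le]; constructor <;> linarith
    · -- Copy
      have hk' : kind z = some 2 := hk
      have ez : xs z = 1 / 2 := by
        rw [hnb z (by rw [hk']; decide) (by rw [hk']; decide) (by rw [hk']; decide)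
          (by rw [hk']; decide), hx0def z, if_neg (by rw [hk']; decide),
          if_neg (by rw [hk']; decide), if_neg (by rw [hk']; decide),
          if_neg (by rw [hk']; decide)]
      refine Or.inr (Or.inr (Or.inl ⟨hk, ?_⟩))
      show |((xs z : ℚ) : ℝ) - ((xs (a z) : ℚ) : ℝ)| ≤ ε
      rw [ez]; push_cast
      rw [abs_le]; constructor <;> linarith
    · -- Add
      have hk' : kind z = some 3 := hk
      have ez : xs z = 3 / 4 := by
        rw [hnb z (by rw [hk']; decide) (by rw [hk']; decide) (by rw [hk']; decide)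
          (by rw [hk']; decide), hx0def z, if_neg (by rw [hk']; decide),
          if_neg (by rw [hk']; decide), if_pos hk']
      have hm1 : min (((xs (a z) : ℚ) : ℝ) + ((xs (b z) : ℚ) : ℝ)) 1 ≤ 1 := min_le_right _ _
      have hm2 : (1 / 2 : ℝ) ≤ min (((xs (a z) : ℚ) : ℝ) + ((xs (b z) : ℚ) : ℝ)) 1 :=
        le_min (by linarith) (by norm_num)
      refine Or.inr (Or.inr (Or.inr (Or.inl ⟨hk, ?_⟩)))
      show |((xs z : ℚ) : ℝ) - min (((xs (a z) : ℚ) : ℝ) + ((xs (b z) : ℚ) : ℝ)) 1| ≤ ε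
      rw [ez]; push_cast
      rw [abs_le]; constructor <;> linarith
    · -- Subtract
      have hk' : kind z = some 4 := hk
      have ez : xs z = 1 / 4 := by
        rw [hnb z (by rw [hk']; decide) (by rw [hk']; decide) (by rw [hk']; decide)
          (by rw [hk']; decide), hx0def z, if_neg (by rw [hk']; decide),
          if_neg (by rw [hk']; decide), if_neg (by rw [hk']; decide), if_pos hk']
      have hm1 : (0 : ℝ) ≤ max (((xs (a z) : ℚ) : ℝ) - ((xs (b z) : ℚ) : ℝ)) 0 :=
        le_max_right _ _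
      have hm2 : max (((xs (a z) : ℚ) : ℝ) - ((xs (b z) : ℚ) : ℝ)) 0 ≤ 1 / 2 :=
        max_le (by linarith) (by norm_num)
      refine Or.inr (Or.inr (Or.inr (Or.inr (Or.inl ⟨hk, ?_⟩))))
      show |((xs z : ℚ) : ℝ) - max (((xs (a z) : ℚ) : ℝ) - ((xs (b z) : ℚ) : ℝ)) 0| ≤ ε
      rw [ez]; push_cast
      rw [abs_le]; constructor <;> linarith
    · -- Less
      have hk' : kind z = some 5 := hk
      have e := hs5 xs z hk'
      rw [hfp'] at e
      refine Or.inr (Or.inr (Or.inr (Or.inr (Or.inr (Or.inl ⟨hk, ?_, ?_⟩)))))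
      · intro h
        have hlt : ((xs (a z) : ℚ) : ℝ) < ((xs (b z) : ℚ) : ℝ) - ε := h
        show 1 - ε ≤ ((xs z : ℚ) : ℝ)
        rw [e, if_pos hlt]; push_cast; linarith
      · intro h
        have hgt : ((xs (b z) : ℚ) : ℝ) + ε < ((xs (a z) : ℚ) : ℝ) := h
        have hnlt : ¬ ((xs (a z) : ℚ) : ℝ) < ((xs (b z) : ℚ) : ℝ) - ε := by
          intro c; linarith
        show ((xs z : ℚ) : ℝ) ≤ ε
        rw [e, if_neg hnlt, if_pos hgt]; push_cast; linarith
    · -- Not
      have hk' : kind z = some 6 := hk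
      have e := hs6 xs z hk'
      rw [hfp'] at e
      refine Or.inr (Or.inr (Or.inr (Or.inr (Or.inr (Or.inr (Or.inl ⟨hk, ?_, ?_⟩))))))
      · intro h
        have hlo : ((xs (a z) : ℚ) : ℝ) ≤ ε := h
        show 1 - ε ≤ ((xs z : ℚ) : ℝ)
        rw [e, if_pos hlo]; push_cast; linarith
      · intro h
        have hhi : 1 - ε ≤ ((xs (a z) : ℚ) : ℝ) := h
        have hnlo : ¬ ((xs (a z) : ℚ) : ℝ) ≤ ε := by intro hlo; linarith
        show ((xs z : ℚ) : ℝ) ≤ ε
        rw [e, if_neg hnlo, if_pos hhi]; push_cast; linarith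
    · -- Or
      have hk' : kind z = some 7 := hk
      have e := hs7 xs z hk'
      rw [hfp'] at e
      refine Or.inr (Or.inr (Or.inr (Or.inr (Or.inr (Or.inr (Or.inr (Or.inl ⟨hk, ?_, ?_⟩)))))))
      · intro h
        have hhi : 1 - ε ≤ ((xs (a z) : ℚ) : ℝ) ∨ 1 - ε ≤ ((xs (b z) : ℚ) : ℝ) := h
        show 1 - ε ≤ ((xs z : ℚ) : ℝ)
        rw [e, if_pos hhi]; push_cast; linarith
      · intro h
        have hlo : ((xs (a z) : ℚ) : ℝ) ≤ ε ∧ ((xs (b z) : ℚ) : ℝ) ≤ ε := h
        have hnhi : ¬ (1 - ε ≤ ((xs (a z) : ℚ) : ℝ) ∨ 1 - ε ≤ ((xs (b z) : ℚ) : ℝ)) := by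
          rintro (c | c)
          · linarith [hlo.1]
          · linarith [hlo.2]
        show ((xs z : ℚ) : ℝ) ≤ ε
        rw [e, if_neg hnhi, if_pos hlo]; push_cast; linarith
    · -- And
      have hk' : kind z = some 8 := hk
      have e := hs8 xs z hk'
      rw [hfp'] at e
      refine Or.inr (Or.inr (Or.inr (Or.inr (Or.inr (Or.inr (Or.inr (Or.inr ⟨hk, ?_, ?_⟩)))))))
      · intro h
        have hhi : 1 - ε ≤ ((xs (a z) : ℚ) : ℝ) ∧ 1 - ε ≤ ((xs (b z) : ℚ) : ℝ) := h
        show 1 - ε ≤ ((xs z : ℚ) : ℝ)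
        rw [e, if_pos hhi]; push_cast; linarith
      · intro h
        have hlo : ((xs (a z) : ℚ) : ℝ) ≤ ε ∨ ((xs (b z) : ℚ) : ℝ) ≤ ε := h
        have hnhi : ¬ (1 - ε ≤ ((xs (a z) : ℚ) : ℝ) ∧ 1 - ε ≤ ((xs (b z) : ℚ) : ℝ)) := by
          rintro ⟨c1, c2⟩
          rcases hlo with c | c
          · linarith
          · linarith
        show ((xs z : ℚ) : ℝ) ≤ ε
        rw [e, if_neg hnhi, if_pos hlo]; push_cast; linarith

end Vale.Agent.Helper2.GCircuitEasy
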