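import Mathlib

/-!
# A vertex-removal bound for the finitistic dimension (helper module for P176)

Let `A` be a left Artinian ring, `e` an idempotent of `A` and `B = eAe` the corner ring.  Suppose
that every simple left `A`-module `T` with `eT = 0` has injective dimension at most `d`, and that
every finitely generated left `B`-module of finite projective dimension has projective dimension
at most `m`.  Then every finitely generated left `A`-module of finite projective dimension has
projective dimension at most `m + d + 1`; in short `findim A ≤ findim (eAe) + d + 1`.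

Proof sketch.  Call a simple module good if it is killed by `e`.  Let `M` have finite projective
dimension.  A `d`-th syzygy `X` of `M` satisfies `Ext^j(X, T) = 0` for `j ≥ 1` and good `T`.
Choose a surjection `Q → X` from a projective module which is minimal (no proper direct summand
of `Q` maps onto `X`; it exists by the descending chain condition and the Fitting decomposition).
Its kernel `K` then satisfies `Ext^j(K, T) = 0` for all `j ≥ 0` and good `T`.  Modules with this
property are generated by their `e`-parts, and have resolutions by finite direct sums of copies of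
`Ae` whose syzygies have the same property.  The exact functor `K ↦ eK` sends such a resolution
to a free resolution over `B`, and a module `K` of this kind is projective over `A` as soon as
`eK` is projective over `B`.  Hence `pd_A K = pd_B (eK) ≤ m`, so `pd_A X ≤ m + 1` and
`pd_A M ≤ m + d + 1`.
-/

universe u

open CategoryTheory Abelian

namespace Vale.Agent.Helper2.VertexRemovalAux

variable {A : Type u} [Ring A]

section EPart

/-- The additive subgroup `eZ = {z | e • z = z}` of an `A`-module `Z`. -/
def eSub (e : A) (Z : Type u) [AddCommGroup Z] [Module A Z] : AddSubgroup Z where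
  carrier := {z | e • z = z}
  zero_mem' := smul_zero e
  add_mem' := fun {a b} (ha : e • a = a) (hb : e • b = b) => by
    show e • (a + b) = a + b
    rw [smul_add, ha, hb]
  neg_mem' := fun {a} (ha : e • a = a) => by
    show e • (-a) = -a
    rw [smul_neg, ha]

theorem mem_eSub {e : A} {Z : Type u} [AddCommGroup Z] [Module A Z] {z : Z} :
    z ∈ eSub e Z ↔ e • z = z := Iff.rfl

variable {e : A} (he : IsIdempotentElem e)

theorem corner_mul_left (b : he.Corner) : e * b.1 = b.1 :=
  ((Subsemigroup.mem_corner_iff he).mp b.2).1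

theorem corner_mul_right (b : he.Corner) : b.1 * e = b.1 :=
  ((Subsemigroup.mem_corner_iff he).mp b.2).2

include he in
theorem smul_mem_eSub (Z : Type u) [AddCommGroup Z] [Module A Z] (z : Z) : e • z ∈ eSub e Z := by
  show e • e • z = e • z
  rw [← mul_smul, he.eq]

/-- The `eAe`-module structure on `eZ`. -/
instance eSubModule (Z : Type u) [AddCommGroup Z] [Module A Z] : Module he.Corner (eSub e Z) where
  smul b z := ⟨b.1 • z.1, by
    show e • (b.1 • z.1) = b.1 • z.1
    rw [← mul_smul, corner_mul_left he b]⟩
  one_smul z := Subtype.ext (by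
    show e • z.1 = z.1
    exact z.2)
  mul_smul b c z := Subtype.ext (by
    show (b.1 * c.1) • z.1 = b.1 • c.1 • z.1
    rw [mul_smul])
  smul_zero b := Subtype.ext (smul_zero b.1)
  smul_add b z w := Subtype.ext (smul_add b.1 z.1 w.1)
  add_smul b c z := Subtype.ext (add_smul b.1 c.1 z.1)
  zero_smul z := Subtype.ext (zero_smul A z.1)

theorem eSub_smul_val (Z : Type u) [AddCommGroup Z] [Module A Z] (b : he.Corner) (z : eSub e Z) :
    (b • z).1 = b.1 • z.1 := rfl

variable {Z W V : Type u} [AddCommGroup Z] [Module A Z] [AddCommGroup W] [Module A W]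
  [AddCommGroup V] [Module A V]

/-- The map induced on `e`-parts by an `A`-linear map. -/
def eMap (f : Z →ₗ[A] W) : eSub e Z →ₗ[he.Corner] eSub e W where
  toFun z := ⟨f z.1, by
    have h : e • z.1 = z.1 := z.2
    show e • f z.1 = f z.1
    rw [← map_smul, h]⟩
  map_add' z w := Subtype.ext (map_add f z.1 w.1)
  map_smul' b z := Subtype.ext (map_smul f b.1 z.1)

theorem eMap_val (f : Z →ₗ[A] W) (z : eSub e Z) : (eMap he f z).1 = f z.1 := rfl

theorem eMap_injective (f : Z →ₗ[A] W) (hf : Function.Injective f) :
    Function.Injective (eMap he f) := by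
  intro z w h
  apply Subtype.ext
  apply hf
  exact congrArg Subtype.val h

theorem eMap_surjective (f : Z →ₗ[A] W) (hf : Function.Surjective f) :
    Function.Surjective (eMap he f) := by
  intro w
  obtain ⟨z, hz⟩ := hf w.1
  refine ⟨⟨e • z, smul_mem_eSub he Z z⟩, ?_⟩
  apply Subtype.ext
  have h : e • w.1 = w.1 := w.2
  show f (e • z) = w.1
  rw [map_smul, hz, h]

theorem eMap_exact (f : Z →ₗ[A] W) (g : W →ₗ[A] V) (hfg : Function.Exact f g) :
    Function.Exact (eMap he f) (eMap he g) := by
  intro w
  constructor
  · intro hw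
    have h0 : g w.1 = 0 := congrArg Subtype.val hw
    obtain ⟨z, hz⟩ := (hfg w.1).mp h0
    refine ⟨⟨e • z, smul_mem_eSub he Z z⟩, ?_⟩
    apply Subtype.ext
    have h : e • w.1 = w.1 := w.2
    show f (e • z) = w.1
    rw [map_smul, hz, h]
  · rintro ⟨z, rfl⟩
    apply Subtype.ext
    show g (f z.1) = 0
    exact (hfg (f z.1)).mpr ⟨z.1, rfl⟩

theorem eMap_comp (f : Z →ₗ[A] W) (g : W →ₗ[A] V) :
    eMap he (g ∘ₗ f) = eMap he g ∘ₗ eMap he f := rfl

theorem eMap_id : eMap he (LinearMap.id : Z →ₗ[A] Z) = LinearMap.id := rfl

end EPart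

section PePower

variable {e : A} (he : IsIdempotentElem e)

/-- The left ideal `Ae`, as a submodule of `A`. -/
def Pe (e : A) : Submodule A A := LinearMap.range (LinearMap.toSpanSingleton A A e)

include he in
theorem mem_Pe_iff {x : A} : x ∈ Pe e ↔ x * e = x := by
  constructor
  · rintro ⟨a, rfl⟩
    show a • e * e = a • e
    rw [smul_eq_mul, mul_assoc, he.eq]
  · intro h
    exact ⟨x, h⟩

/-- The element `e` of `Ae`. -/
def eElt (e : A) : Pe e := ⟨e, ⟨1, one_smul A e⟩⟩

include he in
theorem Pe_eq_smul (x : Pe e) : x = x.1 • eElt e := by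
  apply Subtype.ext
  show x.1 = x.1 * e
  exact ((mem_Pe_iff he).mp x.2).symm

include he in
theorem e_smul_eElt : e • eElt e = eElt e := Subtype.ext he.eq

variable {ι : Type u} [Fintype ι] [DecidableEq ι]

/-- The generator of `(Ae)^ι` with `e` in position `l`. -/
def gen (e : A) (l : ι) : ι → Pe e := Pi.single l (eElt e)

include he in
theorem gen_mem (l : ι) : gen e l ∈ eSub e (ι → Pe e) := by
  show e • gen e l = gen e l
  unfold gen
  rw [← Pi.single_smul, e_smul_eElt he]

variable {Z : Type u} [AddCommGroup Z] [Module A Z]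

/-- The `A`-linear map `(Ae)^ι → Z` determined by a family `y` of elements of `Z`. -/
def lift (e : A) (y : ι → Z) : (ι → Pe e) →ₗ[A] Z :=
  ∑ l, (LinearMap.toSpanSingleton A Z (y l)) ∘ₗ (Pe e).subtype ∘ₗ LinearMap.proj l

theorem lift_apply (y : ι → Z) (v : ι → Pe e) : lift e y v = ∑ l, (v l).1 • y l := by
  unfold lift
  rw [LinearMap.sum_apply]
  rfl

theorem lift_gen (y : ι → Z) (hy : ∀ l, e • y l = y l) (l : ι) : lift e y (gen e l) = y l := by
  rw [lift_apply, Finset.sum_eq_single l]
  · unfold gen
    rw [Pi.single_eq_same]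
    exact hy l
  · intro l' _ hl'
    unfold gen
    rw [Pi.single_eq_of_ne hl']
    exact zero_smul A (y l')
  · intro h
    exact absurd (Finset.mem_univ l) h

include he in
theorem hom_ext_gen (f g : (ι → Pe e) →ₗ[A] Z) (h : ∀ l, f (gen e l) = g (gen e l)) : f = g := by
  apply LinearMap.pi_ext
  intro i x
  rw [Pe_eq_smul he x, Pi.single_smul, map_smul, map_smul]
  exact congrArg (x.1 • ·) (h i)

include he in
theorem Pe_projective_pow : Module.Projective A (ι → Pe e) := by
  have hproj : Module.Projective A (ι → A) := inferInstance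
  refine Module.Projective.of_split ((Pe e).subtype.compLeft ι)
    ((LinearMap.toSpanSingleton A A e).rangeRestrict.compLeft ι) ?_
  refine LinearMap.ext fun v => funext fun l => Subtype.ext ?_
  show (v l).1 • e = (v l).1
  exact (mem_Pe_iff he).mp (v l).2

/-- The `e`-part of `(Ae)^ι` is the free `eAe`-module on `ι`. -/
def ePowEquiv : eSub e (ι → Pe e) ≃ₗ[he.Corner] (ι → he.Corner) where
  toFun v := fun l => ⟨(v.1 l).1, (Subsemigroup.mem_corner_iff he).mpr
    ⟨by
      have h : e • v.1 = v.1 := v.2
      have h2 := congrArg (fun w : ι → Pe e => (w l).1) h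
      exact h2, (mem_Pe_iff he).mp (v.1 l).2⟩⟩
  invFun w := ⟨fun l => ⟨(w l).1, (mem_Pe_iff he).mpr (corner_mul_right he (w l))⟩, by
    show e • (fun l => (⟨(w l).1, (mem_Pe_iff he).mpr (corner_mul_right he (w l))⟩ : Pe e)) = _
    funext l
    apply Subtype.ext
    show e * (w l).1 = (w l).1
    exact corner_mul_left he (w l)⟩
  map_add' v w := rfl
  map_smul' b v := rfl
  left_inv v := rfl
  right_inv w := rfl

theorem ePow_projective : Module.Projective he.Corner (eSub e (ι → Pe e)) :=
  Module.Projective.of_equiv (ePowEquiv he).symm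

theorem ePow_finite : Module.Finite he.Corner (eSub e (ι → Pe e)) :=
  Module.Finite.equiv (ePowEquiv he).symm

variable {W : Type u} [AddCommGroup W] [Module A W]

/-- Two `eAe`-linear maps out of the `e`-part of `(Ae)^ι` agreeing on the generators are equal. -/
theorem eHom_ext_gen (f g : eSub e (ι → Pe e) →ₗ[he.Corner] eSub e W)
    (h : ∀ l, f ⟨gen e l, gen_mem he l⟩ = g ⟨gen e l, gen_mem he l⟩) : f = g := by
  have key : f ∘ₗ (ePowEquiv he).symm.toLinearMap = g ∘ₗ (ePowEquiv he).symm.toLinearMap := by
    apply LinearMap.pi_ext'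
    intro l
    apply LinearMap.ext_ring
    have hl : (ePowEquiv he).symm (Pi.single l (1 : he.Corner)) =
        (⟨gen e l, gen_mem he l⟩ : eSub e (ι → Pe e)) := by
      apply Subtype.ext
      funext l'
      apply Subtype.ext
      show ((Pi.single l (1 : he.Corner) : ι → he.Corner) l').1 = ((gen e l : ι → Pe e) l').1
      unfold gen
      by_cases hll : l' = l
      · subst hll
        rw [Pi.single_eq_same, Pi.single_eq_same]
        rfl
      · rw [Pi.single_eq_of_ne hll, Pi.single_eq_of_ne hll]
        rfl
    show f ((ePowEquiv he).symm (Pi.single l 1)) = g ((ePowEquiv he).symm (Pi.single l 1))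
    rw [hl]
    exact h l
  ext v : 1
  have := LinearMap.congr_fun key (ePowEquiv he v)
  simpa using this

end PePower

section ClassC

variable {e : A}

/-- `ExtVanish e i0 K`: the groups `Ext^j(K, T)` with `j ≥ i0` vanish for all simple modules `T`
killed by `e`. -/
def ExtVanish (e : A) (i0 : ℕ) (K : Type u) [AddCommGroup K] [Module A K] : Prop :=
  ∀ (T : Type u) [AddCommGroup T] [Module A T] [IsSimpleModule A T], (∀ t : T, e • t = 0) →
    ∀ (j : ℕ), i0 ≤ j → ∀ x : Ext (ModuleCat.of A K) (ModuleCat.of A T) j, x = 0

theorem hom_eq_zero_of_extVanish {K : Type u} [AddCommGroup K] [Module A K]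
    (hK : ExtVanish e 0 K) (T : Type u) [AddCommGroup T] [Module A T] [IsSimpleModule A T]
    (hT : ∀ t : T, e • t = 0) (f : K →ₗ[A] T) : f = 0 := by
  have h := hK T hT 0 le_rfl (Ext.mk₀ (ModuleCat.ofHom f))
  rw [← Ext.mk₀_zero] at h
  have h2 := (Ext.mk₀_bijective _ _).1 h
  have h3 := congrArg ModuleCat.Hom.hom h2
  simpa using h3

/-- Ext-vanishing passes to the kernel of a surjection. -/
theorem ext_ker_eq_zero {P K : Type u} [AddCommGroup P] [Module A P] [AddCommGroup K]
    [Module A K] (π : P →ₗ[A] K) (hπ : Function.Surjective π) (Y : ModuleCat.{u} A) (j : ℕ)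
    (hP : ∀ x : Ext (ModuleCat.of A P) Y j, x = 0)
    (hK : ∀ x : Ext (ModuleCat.of A K) Y (j + 1), x = 0)
    (x : Ext (ModuleCat.of A (LinearMap.ker π)) Y j) : x = 0 := by
  have hS := LinearMap.shortExact_shortComplexKer hπ
  obtain ⟨x₂, rfl⟩ := Ext.contravariant_sequence_exact₁ hS Y x (add_comm 1 j) (hK _)
  rw [hP x₂, Ext.comp_zero]

theorem span_eSub_eq_top (he : IsIdempotentElem e) {K : Type u} [AddCommGroup K] [Module A K]
    [Module.Finite A K]
    (hK : ∀ (T : Type u) [AddCommGroup T] [Module A T] [IsSimpleModule A T],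
      (∀ t : T, e • t = 0) → ∀ f : K →ₗ[A] T, f = 0) :
    Submodule.span A ((eSub e K : Set K)) = ⊤ := by
  by_contra hne
  obtain ⟨N, hN, hle⟩ :=
    (IsCoatomic.eq_top_or_exists_le_coatom (Submodule.span A (eSub e K : Set K))).resolve_left hne
  have hsimple : IsSimpleModule A (K ⧸ N) := isSimpleModule_iff_isCoatom.mpr hN
  have hkill : ∀ t : K ⧸ N, e • t = 0 := by
    intro t
    obtain ⟨x, rfl⟩ := N.mkQ_surjective t
    rw [← map_smul, Submodule.mkQ_apply, Submodule.Quotient.mk_eq_zero]
    exact hle (Submodule.subset_span (smul_mem_eSub he K x))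
  have h0 := hK (K ⧸ N) hkill N.mkQ
  have hN2 : N = ⊤ := by
    rw [← Submodule.ker_mkQ N, h0, LinearMap.ker_zero]
  exact hN.1 hN2

theorem hom_Pe_pow_eq_zero (he : IsIdempotentElem e) {ι : Type u} [Fintype ι] [DecidableEq ι]
    (T : Type u) [AddCommGroup T] [Module A T] (hT : ∀ t : T, e • t = 0)
    (g : (ι → Pe e) →ₗ[A] T) : g = 0 := by
  apply hom_ext_gen he
  intro l
  have h : e • gen e l = gen e l := gen_mem he l
  rw [LinearMap.zero_apply, ← h, map_smul]
  exact hT _

theorem exists_presentation [IsNoetherianRing A] (he : IsIdempotentElem e) (K : Type u)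
    [AddCommGroup K] [Module A K] [Module.Finite A K] (hK : ExtVanish e 0 K) :
    ∃ (ι : Type u) (_ : Fintype ι) (_ : DecidableEq ι) (π : (ι → Pe e) →ₗ[A] K),
      Function.Surjective π ∧ ExtVanish e 0 (LinearMap.ker π) := by
  classical
  have hspan := span_eSub_eq_top he (fun T _ _ _ hT f => hom_eq_zero_of_extVanish hK T hT f)
  have hfg : (Submodule.span A (eSub e K : Set K)).FG := by
    rw [hspan]
    exact Module.Finite.fg_top
  obtain ⟨s, hs, hs2⟩ := (Submodule.fg_span_iff_fg_span_finset_subset _).mp hfg
  let y : (↥s) → K := Subtype.val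
  have hy : ∀ l, e • y l = y l := fun l => hs l.2
  have hsurj : Function.Surjective (lift e y) := by
    rw [← LinearMap.range_eq_top, eq_top_iff, ← hspan, hs2]
    apply Submodule.span_le.mpr
    intro x hx
    exact ⟨gen e ⟨x, hx⟩, lift_gen y hy ⟨x, hx⟩⟩
  refine ⟨↥s, inferInstance, inferInstance, lift e y, hsurj, ?_⟩
  intro T _ _ _ hT j _ x
  have hproj : Module.Projective A ((↥s) → Pe e) := Pe_projective_pow he
  have hproj' : Projective (ModuleCat.of A ((↥s) → Pe e)) :=
    ModuleCat.projective_of_categoryTheory_projective _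
  refine ext_ker_eq_zero (lift e y) hsurj (ModuleCat.of A T) j ?_ ?_ x
  · intro x₂
    cases j with
    | zero =>
      obtain ⟨g, rfl⟩ := (Ext.mk₀_bijective _ _).2 x₂
      have hg : g = 0 := by
        apply ModuleCat.hom_ext
        exact hom_Pe_pow_eq_zero he T hT g.hom
      rw [hg, Ext.mk₀_zero]
    | succ j => exact Ext.eq_zero_of_projective x₂
  · intro x₃
    exact hK T hT (j + 1) (Nat.zero_le _) x₃

end ClassC

section Minimal

/-- A finitely generated module over a left Artinian ring is the image of a finitely generated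
projective module `Q` under a map `π` which is minimal in the following sense: every map from
`Q` to a simple module vanishes on the kernel of `π`. -/
theorem exists_min_presentation [IsArtinianRing A] (X : Type u) [AddCommGroup X] [Module A X]
    [Module.Finite A X] :
    ∃ (Q : Type u) (_ : AddCommGroup Q) (_ : Module A Q) (_ : Module.Finite A Q)
      (_ : Module.Projective A Q) (π : Q →ₗ[A] X), Function.Surjective π ∧
      ∀ (T : Type u) [AddCommGroup T] [Module A T] [IsSimpleModule A T] (ψ : Q →ₗ[A] T) (x : Q),
        π x = 0 → ψ x = 0 := by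
  classical
  obtain ⟨r, π₀, hπ₀⟩ := Module.Finite.exists_fin' A X
  have hFA : IsArtinian A (Fin r → A) := inferInstance
  have hFN : IsNoetherian A (Fin r → A) := inferInstance
  let 𝒮 : Set (Submodule A (Fin r → A)) :=
    {Q | (∃ p : (Fin r → A) →ₗ[A] (Fin r → A), (∀ x, p x ∈ Q) ∧ ∀ x ∈ Q, p x = x) ∧
      ∀ x : X, ∃ q ∈ Q, π₀ q = x}
  have hne : 𝒮.Nonempty := by
    refine ⟨⊤, ⟨LinearMap.id, fun x => Submodule.mem_top, fun x _ => rfl⟩, fun x => ?_⟩
    obtain ⟨q, hq⟩ := hπ₀ x
    exact ⟨q, Submodule.mem_top, hq⟩
  obtain ⟨Q, ⟨⟨p, hpQ, hpid⟩, hQsurj⟩, hmin⟩ := IsArtinian.set_has_minimal 𝒮 hne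
  let ρ : (Fin r → A) →ₗ[A] Q := p.codRestrict Q hpQ
  have hρ : ρ ∘ₗ Q.subtype = LinearMap.id := by
    ext q : 1
    exact Subtype.ext (hpid q.1 q.2)
  have hproj : Module.Projective A Q := Module.Projective.of_split Q.subtype ρ hρ
  let π : Q →ₗ[A] X := π₀ ∘ₗ Q.subtype
  have hπ : Function.Surjective π := by
    intro x
    obtain ⟨q, hq, hqx⟩ := hQsurj x
    exact ⟨⟨q, hq⟩, hqx⟩
  refine ⟨Q, inferInstance, inferInstance, inferInstance, hproj, π, hπ, ?_⟩
  intro T _ _ _ ψ x hx
  by_contra hψx
  have hsurj1 : Function.Surjective (π ∘ₗ (LinearMap.ker ψ).subtype) := by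
    intro z
    obtain ⟨q, rfl⟩ := hπ z
    obtain ⟨a, ha⟩ := IsSimpleModule.toSpanSingleton_surjective A hψx (ψ q)
    have ha' : a • ψ x = ψ q := ha
    refine ⟨⟨q - a • x, ?_⟩, ?_⟩
    · rw [LinearMap.mem_ker, map_sub, map_smul, ha', sub_self]
    · show π (q - a • x) = π q
      rw [map_sub, map_smul, hx, smul_zero, sub_zero]
  obtain ⟨h, hh⟩ := Module.projective_lifting_property (π ∘ₗ (LinearMap.ker ψ).subtype) π hsurj1
  let α : Q →ₗ[A] Q := (LinearMap.ker ψ).subtype ∘ₗ h
  have hπα : ∀ q, π (α q) = π q := fun q => LinearMap.congr_fun hh q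
  have hψα : ∀ q, ψ (α q) = 0 := fun q => (h q).2
  have hQA : IsArtinian A Q := inferInstance
  have hQN : IsNoetherian A Q := inferInstance
  obtain ⟨n, hn⟩ := Filter.eventually_atTop.mp (LinearMap.eventually_isCompl_ker_pow_range_pow α)
  have hc : IsCompl (LinearMap.ker (α ^ (n + 1))) (LinearMap.range (α ^ (n + 1))) :=
    hn (n + 1) (Nat.le_succ n)
  have hπpow : ∀ (k : ℕ) (q : Q), π ((α ^ k) q) = π q := by
    intro k
    induction k with
    | zero => intro q; rfl
    | succ k ih =>
      intro q
      rw [pow_succ', Module.End.mul_apply, hπα, ih]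
  have hψpow : ∀ q : Q, ψ ((α ^ (n + 1)) q) = 0 := by
    intro q
    rw [pow_succ', Module.End.mul_apply]
    exact hψα _
  let R : Submodule A Q := LinearMap.range (α ^ (n + 1))
  have hQ'mem : R.map Q.subtype ∈ 𝒮 := by
    refine ⟨⟨Q.subtype ∘ₗ R.subtype ∘ₗ
      (Submodule.projectionOnto R (LinearMap.ker (α ^ (n + 1))) hc.symm) ∘ₗ ρ, ?_, ?_⟩, ?_⟩
    · intro y
      exact ⟨_, (Submodule.projectionOnto R (LinearMap.ker (α ^ (n + 1))) hc.symm (ρ y)).2, rfl⟩
    · rintro _ ⟨q, hq, rfl⟩
      have h1 : ρ (Q.subtype q) = q := LinearMap.congr_fun hρ q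
      have h2 := Submodule.projectionOnto_apply_left hc.symm (⟨q, hq⟩ : R)
      show Q.subtype (R.subtype (Submodule.projectionOnto R (LinearMap.ker (α ^ (n + 1))) hc.symm
        (ρ (Q.subtype q)))) = Q.subtype q
      rw [h1]
      exact congrArg (fun t : R => Q.subtype (R.subtype t)) h2
    · intro z
      obtain ⟨q, rfl⟩ := hπ z
      exact ⟨Q.subtype ((α ^ (n + 1)) q), ⟨_, LinearMap.mem_range_self _ q, rfl⟩, hπpow (n + 1) q⟩
  have hlt : R.map Q.subtype < Q := by
    refine lt_of_le_of_ne ?_ ?_
    · rintro _ ⟨q, _, rfl⟩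
      exact q.2
    · intro heq
      have hxQ' : (x : Fin r → A) ∈ R.map Q.subtype := by
        rw [heq]
        exact x.2
      obtain ⟨q, ⟨q0, rfl⟩, hq⟩ := hxQ'
      have hq2 : (α ^ (n + 1)) q0 = x := Subtype.ext hq
      apply hψx
      rw [← hq2]
      exact hψpow q0
  exact hmin _ hQ'mem hlt

end Minimal

section Transfer

variable {e : A} (he : IsIdempotentElem e)

theorem eMap_ker_comp {P K : Type u} [AddCommGroup P] [Module A P] [AddCommGroup K] [Module A K]
    (π : P →ₗ[A] K) : (eMap he π).comp (eMap he (LinearMap.ker π).subtype) = 0 := by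
  ext z : 1
  apply Subtype.ext
  show π z.1.1 = 0
  exact z.1.2

/-- The short exact sequence of `eAe`-modules `0 → e(ker π) → eP → eK → 0`. -/
theorem eShortExact {P K : Type u} [AddCommGroup P] [Module A P] [AddCommGroup K] [Module A K]
    (π : P →ₗ[A] K) (hπ : Function.Surjective π) :
    (ModuleCat.shortComplexOfCompEqZero (eMap he (LinearMap.ker π).subtype) (eMap he π)
      (eMap_ker_comp he π)).ShortExact :=
  ModuleCat.shortComplex_shortExact _
    (eMap_exact he _ _ (LinearMap.exact_subtype_ker_map π))
    (eMap_injective he _ (LinearMap.ker π).injective_subtype)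
    (eMap_surjective he _ hπ)

theorem Pe_pow_finite [IsNoetherianRing A] (e : A) (ι : Type u) [Fintype ι] :
    Module.Finite A (ι → Pe e) := by
  have h1 : Module.Finite A (Pe e) := Module.IsNoetherian.finite A (Pe e)
  infer_instance

/-- If `K` is in the class and has projective dimension at most `N` over `A`, then `eK` has
projective dimension at most `N` over `eAe`. -/
theorem pdB_of_pdA [IsNoetherianRing A] (N : ℕ) :
    ∀ (K : Type u) [AddCommGroup K] [Module A K] [Module.Finite A K], ExtVanish e 0 K →
      HasProjectiveDimensionLT (ModuleCat.of A K) (N + 1) →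
      HasProjectiveDimensionLT (ModuleCat.of he.Corner (eSub e K)) (N + 1) := by
  induction N with
  | zero =>
    intro K _ _ _ hK hpd
    obtain ⟨ι, _, _, π, hπ, hker⟩ := exists_presentation he K hK
    rw [zero_add] at hpd ⊢
    rw [← projective_iff_hasProjectiveDimensionLT_one] at hpd ⊢
    have hKproj : Module.Projective A K := (IsProjective.iff_projective K).mpr hpd
    obtain ⟨s, hs⟩ := Module.projective_lifting_property π LinearMap.id hπ
    have hPB : Module.Projective he.Corner (eSub e (ι → Pe e)) := ePow_projective he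
    have hKB : Module.Projective he.Corner (eSub e K) :=
      Module.Projective.of_split (eMap he s) (eMap he π) (by rw [← eMap_comp, hs, eMap_id])
    exact (IsProjective.iff_projective _).mp hKB
  | succ N ih =>
    intro K _ _ _ hK hpd
    obtain ⟨ι, _, _, π, hπ, hker⟩ := exists_presentation he K hK
    have hPfin : Module.Finite A (ι → Pe e) := Pe_pow_finite e ι
    have hKerFin : Module.Finite A (LinearMap.ker π) := Module.IsNoetherian.finite A _
    have hS := LinearMap.shortExact_shortComplexKer hπ
    have hPA : Module.Projective A (ι → Pe e) := Pe_projective_pow he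
    have hproj : Projective (ModuleCat.of A (ι → Pe e)) :=
      ModuleCat.projective_of_categoryTheory_projective _
    have h1 : HasProjectiveDimensionLT (ModuleCat.of A (LinearMap.ker π)) (N + 1) :=
      (hS.hasProjectiveDimensionLT_X₃_iff N hproj).mp hpd
    have h2 := ih (LinearMap.ker π) hker h1
    have hSB := eShortExact he π hπ
    have hPB : Module.Projective he.Corner (eSub e (ι → Pe e)) := ePow_projective he
    have hprojB : Projective (ModuleCat.of he.Corner (eSub e (ι → Pe e))) :=
      ModuleCat.projective_of_categoryTheory_projective _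
    exact (hSB.hasProjectiveDimensionLT_X₃_iff N hprojB).mpr h2

/-- If `K` is in the class and `eK` has projective dimension at most `m` over `eAe`, then `K`
has projective dimension at most `m` over `A`. -/
theorem pdA_of_pdB [IsNoetherianRing A] (m : ℕ) :
    ∀ (K : Type u) [AddCommGroup K] [Module A K] [Module.Finite A K], ExtVanish e 0 K →
      HasProjectiveDimensionLT (ModuleCat.of he.Corner (eSub e K)) (m + 1) →
      HasProjectiveDimensionLT (ModuleCat.of A K) (m + 1) := by
  induction m with
  | zero =>
    intro K _ _ _ hK hpd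
    obtain ⟨ι, _, _, π, hπ, hker⟩ := exists_presentation he K hK
    rw [zero_add] at hpd ⊢
    rw [← projective_iff_hasProjectiveDimensionLT_one] at hpd ⊢
    have hKB : Module.Projective he.Corner (eSub e K) := (IsProjective.iff_projective _).mpr hpd
    obtain ⟨σ, hσ⟩ := Module.projective_lifting_property (eMap he π) LinearMap.id
      (eMap_surjective he π hπ)
    let y : ι → (ι → Pe e) := fun l => (σ (eMap he π ⟨gen e l, gen_mem he l⟩)).1
    have hy : ∀ l, e • y l = y l := fun l => (σ (eMap he π ⟨gen e l, gen_mem he l⟩)).2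
    let θ : (ι → Pe e) →ₗ[A] (ι → Pe e) := lift e y
    have hθgen : ∀ l, θ (gen e l) = y l := lift_gen y hy
    have hθe : eMap he θ = σ ∘ₗ eMap he π := by
      apply eHom_ext_gen he
      intro l
      apply Subtype.ext
      show θ (gen e l) = (σ (eMap he π ⟨gen e l, gen_mem he l⟩)).1
      exact hθgen l
    have hπθ : π ∘ₗ θ = π := by
      apply hom_ext_gen he
      intro l
      show π (θ (gen e l)) = π (gen e l)
      rw [hθgen]
      have h5 := LinearMap.congr_fun hσ (eMap he π ⟨gen e l, gen_mem he l⟩)
      exact congrArg Subtype.val h5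
    have hPfin : Module.Finite A (ι → Pe e) := Pe_pow_finite e ι
    have hKerFin : Module.Finite A (LinearMap.ker π) := Module.IsNoetherian.finite A _
    have hspan := span_eSub_eq_top he (K := LinearMap.ker π)
      (fun T _ _ _ hT f => hom_eq_zero_of_extVanish hker T hT f)
    have hθker : ∀ z : LinearMap.ker π, θ z.1 = 0 := by
      intro z
      have hz : z ∈ Submodule.span A (eSub e (LinearMap.ker π) : Set (LinearMap.ker π)) := by
        rw [hspan]
        trivial
      refine Submodule.span_induction (p := fun z _ => θ z.1 = 0) ?_ ?_ ?_ ?_ hz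
      · intro w hw
        have hw0 : e • w = w := hw
        have hw1 : e • w.1 = w.1 := congrArg Subtype.val hw0
        have h3 := congrArg Subtype.val (LinearMap.congr_fun hθe ⟨w.1, hw1⟩)
        have h4 : eMap he π ⟨w.1, hw1⟩ = 0 := Subtype.ext w.2
        have h6 : θ w.1 = (σ (eMap he π ⟨w.1, hw1⟩)).1 := h3
        rw [h4, map_zero] at h6
        exact h6
      · exact map_zero θ
      · intro a b _ _ ha hb
        show θ (a.1 + b.1) = 0
        rw [map_add, ha, hb, add_zero]
      · intro a b _ hb
        show θ (a • b.1) = 0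
        rw [map_smul, hb, smul_zero]
    have hle : LinearMap.ker π ≤ LinearMap.ker θ := fun z hz => hθker ⟨z, hz⟩
    let s : K →ₗ[A] (ι → Pe e) :=
      ((LinearMap.ker π).liftQ θ hle) ∘ₗ (π.quotKerEquivOfSurjective hπ).symm.toLinearMap
    have hs : π ∘ₗ s = LinearMap.id := by
      ext k : 1
      obtain ⟨p, rfl⟩ := hπ k
      have h1 : (π.quotKerEquivOfSurjective hπ).symm (π p) = (LinearMap.ker π).mkQ p := by
        rw [LinearEquiv.symm_apply_eq]
        rfl
      show π (((LinearMap.ker π).liftQ θ hle) ((π.quotKerEquivOfSurjective hπ).symm (π p))) = π p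
      rw [h1]
      show π (θ p) = π p
      exact LinearMap.congr_fun hπθ p
    have hPproj : Module.Projective A (ι → Pe e) := Pe_projective_pow he
    have hKA : Module.Projective A K := Module.Projective.of_split s π hs
    exact (IsProjective.iff_projective K).mp hKA
  | succ m ih =>
    intro K _ _ _ hK hpd
    obtain ⟨ι, _, _, π, hπ, hker⟩ := exists_presentation he K hK
    have hPfin : Module.Finite A (ι → Pe e) := Pe_pow_finite e ι
    have hKerFin : Module.Finite A (LinearMap.ker π) := Module.IsNoetherian.finite A _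
    have hS := LinearMap.shortExact_shortComplexKer hπ
    have hPA : Module.Projective A (ι → Pe e) := Pe_projective_pow he
    have hproj : Projective (ModuleCat.of A (ι → Pe e)) :=
      ModuleCat.projective_of_categoryTheory_projective _
    have hSB := eShortExact he π hπ
    have hPB : Module.Projective he.Corner (eSub e (ι → Pe e)) := ePow_projective he
    have hprojB : Projective (ModuleCat.of he.Corner (eSub e (ι → Pe e))) :=
      ModuleCat.projective_of_categoryTheory_projective _
    have h1 : HasProjectiveDimensionLT (ModuleCat.of he.Corner (eSub e (LinearMap.ker π)))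
        (m + 1) := (hSB.hasProjectiveDimensionLT_X₃_iff m hprojB).mp hpd
    have h2 := ih (LinearMap.ker π) hker h1
    exact (hS.hasProjectiveDimensionLT_X₃_iff m hproj).mpr h2

end Transfer

section Main

variable {e : A}

/-- If `Ext^j(M, T) = 0` for all `j ≥ i + 1` and all simple `T` killed by `e`, and `M` has finite
projective dimension, then `M` has projective dimension at most `m + i + 1`. -/
theorem pd_le_of_extVanish [IsArtinianRing A] (he : IsIdempotentElem e) (m : ℕ)
    (hcorner : ∀ (N : ModuleCat.{u} he.Corner) [Module.Finite he.Corner N] (n : ℕ),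
      HasProjectiveDimensionLE N n → HasProjectiveDimensionLE N m) (i : ℕ) :
    ∀ (M : Type u) [AddCommGroup M] [Module A M] [Module.Finite A M] (N : ℕ),
      HasProjectiveDimensionLT (ModuleCat.of A M) (N + 1) → ExtVanish e (i + 1) M →
      HasProjectiveDimensionLT (ModuleCat.of A M) (m + i + 2) := by
  induction i with
  | zero =>
    intro M _ _ _ N hpd hM
    obtain ⟨Q, _, _, _, hQproj, π, hπ, hmin⟩ := exists_min_presentation (A := A) M
    have hKfin : Module.Finite A (LinearMap.ker π) := Module.IsNoetherian.finite A _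
    have hproj : Projective (ModuleCat.of A Q) :=
      ModuleCat.projective_of_categoryTheory_projective _
    have hS := LinearMap.shortExact_shortComplexKer hπ
    have hK : ExtVanish e 0 (LinearMap.ker π) := by
      intro T _ _ _ hT j _ x
      cases j with
      | zero =>
        obtain ⟨x₂, rfl⟩ := Ext.contravariant_sequence_exact₁ hS (ModuleCat.of A T) x
          (rfl : 1 + 0 = 1) (hM T hT 1 le_rfl _)
        obtain ⟨g, rfl⟩ := (Ext.mk₀_bijective _ _).2 x₂
        rw [Ext.mk₀_comp_mk₀]
        have hg : π.shortComplexKer.f ≫ g = 0 := by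
          apply ModuleCat.hom_ext
          apply LinearMap.ext
          intro z
          exact hmin T g.hom z.1 z.2
        rw [hg, Ext.mk₀_zero]
      | succ j =>
        exact ext_ker_eq_zero π hπ (ModuleCat.of A T) (j + 1)
          (fun x₂ => Ext.eq_zero_of_projective x₂)
          (fun x₃ => hM T hT (j + 2) (by omega) x₃) x
    have hP1 : HasProjectiveDimensionLT (ModuleCat.of A Q) 1 :=
      projective_iff_hasProjectiveDimensionLT_one.mp hproj
    have h1 : HasProjectiveDimensionLT (ModuleCat.of A (LinearMap.ker π)) (N + 1) := by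
      have hP : HasProjectiveDimensionLT (ModuleCat.of A Q) (N + 1) :=
        hasProjectiveDimensionLT_of_ge _ 1 (N + 1) (by omega)
      have hM' : HasProjectiveDimensionLT (ModuleCat.of A M) (N + 1 + 1) :=
        hasProjectiveDimensionLT_of_ge _ (N + 1) (N + 1 + 1) (by omega)
      exact hS.hasProjectiveDimensionLT_X₁ (N + 1) hP hM'
    have h2 := pdB_of_pdA he N (LinearMap.ker π) hK h1
    obtain ⟨ι, _, _, π', hπ', -⟩ := exists_presentation he (LinearMap.ker π) hK
    have hfinB : Module.Finite he.Corner (eSub e (LinearMap.ker π)) := by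
      have hfin := ePow_finite he (ι := ι)
      exact Module.Finite.of_surjective (eMap he π') (eMap_surjective he π' hπ')
    have h3 : HasProjectiveDimensionLT (ModuleCat.of he.Corner (eSub e (LinearMap.ker π)))
        (m + 1) := hcorner (ModuleCat.of he.Corner (eSub e (LinearMap.ker π))) N h2
    have h4 := pdA_of_pdB he m (LinearMap.ker π) hK h3
    have hP2 : HasProjectiveDimensionLT (ModuleCat.of A Q) (m + 1 + 1) :=
      hasProjectiveDimensionLT_of_ge _ 1 (m + 1 + 1) (by omega)
    exact hS.hasProjectiveDimensionLT_X₃ (m + 1) h4 hP2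
  | succ i ih =>
    intro M _ _ _ N hpd hM
    obtain ⟨r, π, hπ⟩ := Module.Finite.exists_fin' A M
    have hKfin : Module.Finite A (LinearMap.ker π) := Module.IsNoetherian.finite A _
    have hproj : Projective (ModuleCat.of A (Fin r → A)) :=
      ModuleCat.projective_of_categoryTheory_projective _
    have hS := LinearMap.shortExact_shortComplexKer hπ
    have hK : ExtVanish e (i + 1) (LinearMap.ker π) := by
      intro T _ _ _ hT j hj x
      cases j with
      | zero => omega
      | succ j =>
        exact ext_ker_eq_zero π hπ (ModuleCat.of A T) (j + 1)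
          (fun x₂ => Ext.eq_zero_of_projective x₂)
          (fun x₃ => hM T hT (j + 2) (by omega) x₃) x
    have hP1 : HasProjectiveDimensionLT (ModuleCat.of A (Fin r → A)) 1 :=
      projective_iff_hasProjectiveDimensionLT_one.mp hproj
    have h1 : HasProjectiveDimensionLT (ModuleCat.of A (LinearMap.ker π)) (N + 1) := by
      have hP : HasProjectiveDimensionLT (ModuleCat.of A (Fin r → A)) (N + 1) :=
        hasProjectiveDimensionLT_of_ge _ 1 (N + 1) (by omega)
      have hM' : HasProjectiveDimensionLT (ModuleCat.of A M) (N + 1 + 1) :=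
        hasProjectiveDimensionLT_of_ge _ (N + 1) (N + 1 + 1) (by omega)
      exact hS.hasProjectiveDimensionLT_X₁ (N + 1) hP hM'
    have h2 := ih (LinearMap.ker π) N h1 hK
    have hP2 : HasProjectiveDimensionLT (ModuleCat.of A (Fin r → A)) (m + i + 2 + 1) :=
      hasProjectiveDimensionLT_of_ge _ 1 (m + i + 2 + 1) (by omega)
    exact hS.hasProjectiveDimensionLT_X₃ (m + i + 2) h2 hP2

/-- **Vertex removal bound.**  Let `A` be a left Artinian ring, `e` an idempotent of `A` and
`d, m` natural numbers such that every simple left `A`-module killed by `e` has injective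
dimension at most `d`, and every finitely generated left module of finite projective dimension
over the corner ring `eAe` has projective dimension at most `m`.  Then every finitely generated
left `A`-module of finite projective dimension has projective dimension at most `m + d + 1`. -/
theorem vertex_removal {A : Type u} [Ring A] [IsArtinianRing A] (e : A) (he : IsIdempotentElem e)
    (d m : ℕ)
    (hgood : ∀ (T : Type u) [AddCommGroup T] [Module A T] [IsSimpleModule A T],
      (∀ t : T, e • t = 0) → HasInjectiveDimensionLE (ModuleCat.of A T) d)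
    (hcorner : ∀ (N : ModuleCat.{u} he.Corner) [Module.Finite he.Corner N] (n : ℕ),
      HasProjectiveDimensionLE N n → HasProjectiveDimensionLE N m)
    (M : ModuleCat.{u} A) [Module.Finite A M] (n : ℕ) (hM : HasProjectiveDimensionLE M n) :
    HasProjectiveDimensionLE M (m + d + 1) := by
  have hV : ExtVanish e (d + 1) M := by
    intro T _ _ _ hT j hj x
    have hT' := hgood T hT
    exact x.eq_zero_of_hasInjectiveDimensionLT (d + 1) hj
  exact pd_le_of_extVanish he m hcorner d M n hM hV

end Main

end Vale.Agent.Helper2.VertexRemovalAux
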